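import Vale.Agent.P300.H148.TorSpec

/-!
P300, block NODE/CONJ (helper251): the fifteen pairs of local monodromies
(computed from the two-chart loops of the charts `kap ν` of `TorSpec`) are conjugate, up to
inverses and order, to the fifteen standard pairs.
-/

set_option autoImplicit false

namespace Vale.Agent.P300.Tor

namespace Arr

section
variable {G : Type} [Group G] (A : Arr G)

/-- the monodromies around `u = 0` at the nodes `0, …, 14` of the table of helper142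
(`H142/Kap.lean`) and in the extra chart `15`. -/
def wa : Fin 16 → G :=
  ![A.T0, A.T0, A.T1, A.T1, A.c3⁻¹,
    A.T0, A.c2⁻¹, A.c2⁻¹, A.c1⁻¹, A.c1⁻¹,
    A.c2⁻¹, A.c1 * A.c2 * A.c3, A.c2 * A.T0⁻¹ * A.T1⁻¹, A.c2 * A.c3⁻¹ * A.c2⁻¹, A.c1⁻¹,
    A.T0]

/-- the monodromies around `v = 0` -/
def wb : Fin 16 → G :=
  ![A.c3⁻¹, A.c1 * A.c2 * A.c3, A.c1 * A.c2 * A.c3, A.c3⁻¹ * A.c2⁻¹ * A.T1,
    A.c3⁻¹ * A.c2⁻¹ * A.T1,
    A.c2⁻¹ * A.c1⁻¹ * A.T0, A.c2⁻¹ * A.c1⁻¹ * A.T0, A.c3⁻¹ * A.c2⁻¹ * A.T1, A.T1,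
    A.c2⁻¹ * A.c1⁻¹ * A.T0,
    A.c1 * A.c2 * A.c3 * A.T0⁻¹ * A.T1⁻¹, A.c1 * A.c2 * A.c3 * A.T0⁻¹ * A.T1⁻¹,
    A.c1 * A.c2 * A.c3 * A.T0⁻¹ * A.T1⁻¹, A.c2 * A.T0⁻¹ * A.T1⁻¹, A.c2 * A.T0⁻¹ * A.T1⁻¹,
    A.c3⁻¹]

/-! push lemmas `T * c = w * T` -/

theorem pT0c1 : A.T0 * A.c1 = A.c1 * A.c2 * A.c1 * A.c2⁻¹ * A.c1⁻¹ * A.T0 := by
  have h := A.r01
  rw [mul_inv_eq_iff_eq_mul] at h
  rw [h]; group
theorem pT0c2 : A.T0 * A.c2 = A.c1 * A.c2 * A.c1⁻¹ * A.T0 := by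
  have h := A.r02
  rw [mul_inv_eq_iff_eq_mul] at h
  rw [h]; group
theorem pT0c3 : A.T0 * A.c3 = A.c3 * A.T0 := by
  have h := A.r03
  rw [mul_inv_eq_iff_eq_mul] at h
  rw [h]
theorem pT1c1 : A.T1 * A.c1 = A.c1 * A.T1 := by
  have h := A.r11
  rw [mul_inv_eq_iff_eq_mul] at h
  rw [h]
theorem pT1c2 : A.T1 * A.c2 = A.c2 * A.c3 * A.c2 * A.c3⁻¹ * A.c2⁻¹ * A.T1 := by
  have h := A.r12
  rw [mul_inv_eq_iff_eq_mul] at h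
  rw [h]; group
theorem pT1c3 : A.T1 * A.c3 = A.c2 * A.c3 * A.c2⁻¹ * A.T1 := by
  have h := A.r13
  rw [mul_inv_eq_iff_eq_mul] at h
  rw [h]; group

end

/-- from `t c = w t` get `t c⁻¹ = w⁻¹ t` -/
theorem push_inv {G : Type} [Group G] {t c w : G} (h : t * c = w * t) : t * c⁻¹ = w⁻¹ * t := by
  have h2 : c = t⁻¹ * w * t := by
    calc c = t⁻¹ * (t * c) := by group
      _ = _ := by rw [h]; group
  rw [h2]; group

section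
variable {G : Type} [Group G] (A : Arr G)

theorem T0d : A.T0 * (A.c1 * A.c2) = A.c1 * A.c2 * A.T0 := by
  calc A.T0 * (A.c1 * A.c2) = (A.T0 * A.c1) * A.c2 := by group
    _ = A.c1 * A.c2 * A.c1 * A.c2⁻¹ * A.c1⁻¹ * (A.T0 * A.c2) := by rw [pT0c1]; group
    _ = _ := by rw [pT0c2]; group

theorem T1e : A.T1 * (A.c2 * A.c3) = A.c2 * A.c3 * A.T1 := by
  calc A.T1 * (A.c2 * A.c3) = (A.T1 * A.c2) * A.c3 := by group
    _ = A.c2 * A.c3 * A.c2 * A.c3⁻¹ * A.c2⁻¹ * (A.T1 * A.c3) := by rw [pT1c2]; group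
    _ = _ := by rw [pT1c3]; group

theorem nT0c1 : A.T0⁻¹ * A.c1 = A.c2⁻¹ * A.c1 * A.c2 * A.T0⁻¹ := by
  have h : A.T0 * (A.c2⁻¹ * A.c1 * A.c2) = A.c1 * A.T0 := by
    calc A.T0 * (A.c2⁻¹ * A.c1 * A.c2) = (A.T0 * A.c2⁻¹) * (A.c1 * A.c2) := by group
      _ = (A.c1 * A.c2 * A.c1⁻¹)⁻¹ * (A.T0 * (A.c1 * A.c2)) := by
          rw [push_inv A.pT0c2]; group
      _ = _ := by rw [A.T0d]; group
  calc A.T0⁻¹ * A.c1 = A.T0⁻¹ * (A.c1 * A.T0) * A.T0⁻¹ := by group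
    _ = _ := by rw [← h]; group

theorem nT0c2 : A.T0⁻¹ * A.c2 = A.c2⁻¹ * A.c1⁻¹ * A.c2 * A.c1 * A.c2 * A.T0⁻¹ := by
  have h : A.T0 * (A.c2⁻¹ * A.c1⁻¹ * A.c2 * A.c1 * A.c2) = A.c2 * A.T0 := by
    calc A.T0 * (A.c2⁻¹ * A.c1⁻¹ * A.c2 * A.c1 * A.c2)
        = (A.T0 * (A.c1 * A.c2)⁻¹) * (A.c2 * (A.c1 * A.c2)) := by group
      _ = (A.c1 * A.c2)⁻¹ * (A.T0 * A.c2) * (A.c1 * A.c2) := by
          rw [push_inv A.T0d]; group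
      _ = (A.c1 * A.c2)⁻¹ * (A.c1 * A.c2 * A.c1⁻¹) * (A.T0 * (A.c1 * A.c2)) := by
          rw [A.pT0c2]; group
      _ = _ := by rw [A.T0d]; group
  calc A.T0⁻¹ * A.c2 = A.T0⁻¹ * (A.c2 * A.T0) * A.T0⁻¹ := by group
    _ = _ := by rw [← h]; group

theorem nT0c3 : A.T0⁻¹ * A.c3 = A.c3 * A.T0⁻¹ := by
  calc A.T0⁻¹ * A.c3 = A.T0⁻¹ * (A.c3 * A.T0) * A.T0⁻¹ := by group
    _ = _ := by rw [← A.pT0c3]; group

theorem nT1c1 : A.T1⁻¹ * A.c1 = A.c1 * A.T1⁻¹ := by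
  calc A.T1⁻¹ * A.c1 = A.T1⁻¹ * (A.c1 * A.T1) * A.T1⁻¹ := by group
    _ = _ := by rw [← A.pT1c1]; group

theorem nT1c2 : A.T1⁻¹ * A.c2 = A.c3⁻¹ * A.c2 * A.c3 * A.T1⁻¹ := by
  have h : A.T1 * (A.c3⁻¹ * A.c2 * A.c3) = A.c2 * A.T1 := by
    calc A.T1 * (A.c3⁻¹ * A.c2 * A.c3) = (A.T1 * A.c3⁻¹) * (A.c2 * A.c3) := by group
      _ = (A.c2 * A.c3 * A.c2⁻¹)⁻¹ * (A.T1 * (A.c2 * A.c3)) := by
          rw [push_inv A.pT1c3]; group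
      _ = _ := by rw [A.T1e]; group
  calc A.T1⁻¹ * A.c2 = A.T1⁻¹ * (A.c2 * A.T1) * A.T1⁻¹ := by group
    _ = _ := by rw [← h]; group

theorem nT1c3 : A.T1⁻¹ * A.c3 = A.c3⁻¹ * A.c2⁻¹ * A.c3 * A.c2 * A.c3 * A.T1⁻¹ := by
  have h : A.T1 * (A.c3⁻¹ * A.c2⁻¹ * A.c3 * A.c2 * A.c3) = A.c3 * A.T1 := by
    calc A.T1 * (A.c3⁻¹ * A.c2⁻¹ * A.c3 * A.c2 * A.c3)
        = (A.T1 * (A.c2 * A.c3)⁻¹) * (A.c3 * (A.c2 * A.c3)) := by group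
      _ = (A.c2 * A.c3)⁻¹ * (A.T1 * A.c3) * (A.c2 * A.c3) := by
          rw [push_inv A.T1e]; group
      _ = (A.c2 * A.c3)⁻¹ * (A.c2 * A.c3 * A.c2⁻¹) * (A.T1 * (A.c2 * A.c3)) := by
          rw [A.pT1c3]; group
      _ = _ := by rw [A.T1e]; group
  calc A.T1⁻¹ * A.c3 = A.T1⁻¹ * (A.c3 * A.T1) * A.T1⁻¹ := by group
    _ = _ := by rw [← h]; group

end

/-- associated form of a push lemma -/
theorem push_assoc {G : Type} [Group G] {t c w : G} (h : t * c = w * t) (z : G) :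
    t * (c * z) = w * (t * z) := by
  rw [← mul_assoc, h, mul_assoc]

section
variable {G : Type} [Group G] (A : Arr G)

/-- which standard pair -/
def wmu : Fin 16 → Fin 15 := ![2, 6, 8, 9, 4, 0, 1, 3, 7, 5, 12, 13, 14, 11, 10, 2]

theorem ti''_eq : A.ti'' = A.T1⁻¹ * A.T0⁻¹ * A.c1 * A.c2 * A.c3 := by
  simp only [Arr.ti'', mul_inv_rev, inv_inv, mul_assoc]

theorem ti'_eq : A.ti' = A.c3⁻¹ * A.c1⁻¹ * A.T1⁻¹ * A.T0⁻¹ * A.c1 * A.c2 * A.c3 := by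
  simp only [Arr.ti', ti''_eq, mul_inv_rev, mul_assoc]

theorem conj_of {G : Type} [Group G] {a x g : G} (h : g * x = a * g) : a = g * x * g⁻¹ := by
  rw [h]; group

end

end Arr

theorem ConjPair.mk1 {G : Type} [Group G] {a b x y : G} (g : G) (ε δ : ℤˣ)
    (h1 : a = g * x ^ (ε : ℤ) * g⁻¹) (h2 : b = g * y ^ (δ : ℤ) * g⁻¹) : ConjPair a b x y :=
  ⟨g, ε, δ, Or.inl ⟨h1, h2⟩⟩

theorem ConjPair.mk2 {G : Type} [Group G] {a b x y : G} (g : G) (ε δ : ℤˣ)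
    (h1 : a = g * y ^ (ε : ℤ) * g⁻¹) (h2 : b = g * x ^ (δ : ℤ) * g⁻¹) : ConjPair a b x y :=
  ⟨g, ε, δ, Or.inr ⟨h1, h2⟩⟩

namespace Arr

variable {G : Type} [Group G] (A : Arr G)

theorem T0P : A.T0 * (A.c1 * A.c2 * A.c3) = A.c1 * A.c2 * A.c3 * A.T0 := by
  calc A.T0 * (A.c1 * A.c2 * A.c3) = (A.T0 * (A.c1 * A.c2)) * A.c3 := by group
    _ = A.c1 * A.c2 * (A.T0 * A.c3) := by rw [T0d]; group
    _ = _ := by rw [pT0c3]; group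

theorem T1P : A.T1 * (A.c1 * A.c2 * A.c3) = A.c1 * A.c2 * A.c3 * A.T1 := by
  calc A.T1 * (A.c1 * A.c2 * A.c3) = (A.T1 * A.c1) * (A.c2 * A.c3) := by group
    _ = A.c1 * (A.T1 * (A.c2 * A.c3)) := by rw [pT1c1]; group
    _ = _ := by rw [T1e]; group

theorem comm_inv {G : Type} [Group G] {t p : G} (h : t * p = p * t) : t⁻¹ * p = p * t⁻¹ := by
  calc t⁻¹ * p = t⁻¹ * (p * t) * t⁻¹ := by group
    _ = _ := by rw [← h]; group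

theorem e6a : A.c1⁻¹ = A.T1 * A.c1⁻¹ * A.T1⁻¹ := by
  rw [push_inv A.pT1c1]; group

theorem e6b : A.c2 * A.T0⁻¹ = A.T1 * A.ti' := by
  have h1 := push_inv A.pT1c3
  have h2 := push_inv A.pT1c1
  calc A.c2 * A.T0⁻¹ = A.c2 * (A.c1 * A.c2 * A.c3)⁻¹ * (A.c1 * A.c2 * A.c3 * A.T0⁻¹) := by group
    _ = A.c2 * (A.c1 * A.c2 * A.c3)⁻¹ * (A.T0⁻¹ * (A.c1 * A.c2 * A.c3)) := by
        rw [comm_inv A.T0P]
    _ = (A.c2 * A.c3 * A.c2⁻¹)⁻¹ * (A.c1⁻¹ * A.T1) * A.T1⁻¹ * A.T0⁻¹ * (A.c1 * A.c2 * A.c3) := by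
        group
    _ = ((A.c2 * A.c3 * A.c2⁻¹)⁻¹ * A.T1) * A.c1⁻¹ * A.T1⁻¹ * A.T0⁻¹ *
          (A.c1 * A.c2 * A.c3) := by rw [← h2]; group
    _ = _ := by rw [← h1, ti'_eq]; group

theorem e8a : A.c1 * A.c2 * A.c3 * A.T0⁻¹ = A.T1 * A.ti'' := by
  rw [ti''_eq, ← comm_inv A.T0P]; group

theorem e11b : A.c1 * A.c2 * A.c3 = A.T1 * A.c4⁻¹ * A.T1⁻¹ := by
  rw [Arr.c4, inv_inv, T1P]; group

theorem e13a : A.c2⁻¹ = A.T0⁻¹ * (A.c1 * (A.c2⁻¹ * A.c1⁻¹)) * A.T0 := by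
  have h := push_inv A.pT0c2
  calc A.c2⁻¹ = A.T0⁻¹ * (A.T0 * A.c2⁻¹) := by group
    _ = _ := by rw [h]; group

theorem e13b : A.c1 * A.c2 * A.c3 * A.T0⁻¹ * A.T1⁻¹ = A.T0⁻¹ * A.ti'' * A.T0 := by
  have h3 := comm_inv A.T0P
  have h4 := comm_inv A.T1P
  symm
  calc A.T0⁻¹ * A.ti'' * A.T0
      = A.T0⁻¹ * A.T1⁻¹ * (A.T0⁻¹ * (A.c1 * A.c2 * A.c3)) * A.T0 := by rw [ti''_eq]; group
    _ = A.T0⁻¹ * (A.T1⁻¹ * (A.c1 * A.c2 * A.c3)) := by rw [h3]; group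
    _ = (A.T0⁻¹ * (A.c1 * A.c2 * A.c3)) * A.T1⁻¹ := by rw [h4]; group
    _ = _ := by rw [h3]

theorem e13c : A.c2 * A.c3⁻¹ * A.c2⁻¹ = A.T1 * A.c3⁻¹ * A.T1⁻¹ := by
  rw [push_inv A.pT1c3]; group

/-- **CONJ.**  The pairs of local monodromies are conjugate to the standard pairs. -/
theorem conj_table (ν : Fin 16) :
    ConjPair (A.wa ν) (A.wb ν) (A.std (wmu ν)).1 (A.std (wmu ν)).2 := by
  fin_cases ν
  · exact ConjPair.mk1 1 1 (-1) (by simp [wa, wmu, std, t0'']) (by simp [wb, wmu, std])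
  · exact ConjPair.mk1 1 1 (-1) (by simp [wa, wmu, std, t0'']) (by simp [wb, wmu, std, c4])
  · exact ConjPair.mk2 1 1 (-1) (by simp [wa, wmu, std, t1'']) (by simp [wb, wmu, std, c4])
  · exact ConjPair.mk2 1 1 1 (by simp [wa, wmu, std, t1'']) (by simp [wb, wmu, std, t1', mul_assoc])
  · exact ConjPair.mk1 1 (-1) 1 (by simp [wa, wmu, std]) (by simp [wb, wmu, std, t1', mul_assoc])
  · exact ConjPair.mk1 1 1 1 (by simp [wa, wmu, std, t0'']) (by simp [wb, wmu, std, t0', mul_assoc])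
  · exact ConjPair.mk1 1 (-1) 1 (by simp [wa, wmu, std]) (by simp [wb, wmu, std, t0', mul_assoc])
  · exact ConjPair.mk1 1 (-1) 1 (by simp [wa, wmu, std]) (by simp [wb, wmu, std, t1', mul_assoc])
  · exact ConjPair.mk1 1 (-1) 1 (by simp [wa, wmu, std]) (by simp [wb, wmu, std, t1''])
  · exact ConjPair.mk1 1 (-1) 1 (by simp [wa, wmu, std]) (by simp [wb, wmu, std, t0', mul_assoc])
  · exact ConjPair.mk1 A.T0⁻¹ (-1) 1 (by simpa [wa, wmu, std] using A.e13a)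
      (by simpa [wb, wmu, std] using A.e13b)
  · exact ConjPair.mk1 A.T1 (-1) 1 (by simpa [wa, wmu, std] using A.e11b)
      (by simpa [wb, wmu, std] using A.e8a)
  · exact ConjPair.mk1 A.T1 1 1 (by simpa [wa, wmu, std] using A.e6b)
      (by simpa [wb, wmu, std] using A.e8a)
  · exact ConjPair.mk1 A.T1 (-1) 1 (by simpa [wa, wmu, std] using A.e13c)
      (by simpa [wb, wmu, std] using A.e6b)
  · exact ConjPair.mk1 A.T1 (-1) 1 (by simpa [wa, wmu, std] using A.e6a)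
      (by simpa [wb, wmu, std] using A.e6b)
  · exact ConjPair.mk1 1 1 (-1) (by simp [wa, wmu, std, t0'']) (by simp [wb, wmu, std])

/-- every standard pair occurs among the nodes `0, …, 14` -/
theorem wmu_bij : ∀ μ : Fin 15, ∃ ν : Fin 15, wmu ν.castSucc = μ := by decide

theorem ti''_eq2 : A.ti'' = A.c1 * A.c2 * A.c3 * A.T1⁻¹ * A.T0⁻¹ := by
  calc A.ti'' = A.T1⁻¹ * (A.T0⁻¹ * (A.c1 * A.c2 * A.c3)) := by rw [ti''_eq]; group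
    _ = (A.T1⁻¹ * (A.c1 * A.c2 * A.c3)) * A.T0⁻¹ := by rw [comm_inv A.T0P]; group
    _ = _ := by rw [comm_inv A.T1P]

theorem ti'_eq2 : A.ti' = A.c3⁻¹ * A.c2 * A.c3 * A.T1⁻¹ * A.T0⁻¹ := by
  rw [Arr.ti', ti''_eq2]; group

theorem comm_c1_ti' : Commute A.c1 A.ti' := by
  rw [commute_iff_eq, ti'_eq2]
  symm
  calc A.c3⁻¹ * A.c2 * A.c3 * A.T1⁻¹ * A.T0⁻¹ * A.c1
      = A.c3⁻¹ * A.c2 * A.c3 * A.T1⁻¹ * (A.T0⁻¹ * A.c1) := by group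
    _ = A.c3⁻¹ * A.c2 * A.c3 * (A.T1⁻¹ * A.c2⁻¹) * A.c1 * A.c2 * A.T0⁻¹ := by
        rw [nT0c1]; group
    _ = (A.T1⁻¹ * A.c1) * A.c2 * A.T0⁻¹ := by rw [push_inv A.nT1c2]; group
    _ = A.c1 * (A.T1⁻¹ * A.c2) * A.T0⁻¹ := by rw [nT1c1]; group
    _ = _ := by rw [nT1c2]; group

theorem comm_c3_ti' : Commute A.c3 A.ti' := by
  rw [commute_iff_eq, ti'_eq2]
  symm
  calc A.c3⁻¹ * A.c2 * A.c3 * A.T1⁻¹ * A.T0⁻¹ * A.c3
      = A.c3⁻¹ * A.c2 * A.c3 * A.T1⁻¹ * (A.T0⁻¹ * A.c3) := by group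
    _ = A.c3⁻¹ * A.c2 * A.c3 * (A.T1⁻¹ * A.c3) * A.T0⁻¹ := by rw [nT0c3]; group
    _ = _ := by rw [nT1c3]; group

theorem comm_c2'_ti'' : Commute (A.c1 * A.c2 * A.c1⁻¹) A.ti'' := by
  rw [commute_iff_eq, ti''_eq2]
  symm
  have h : A.T0⁻¹ * (A.c1 * A.c2 * A.c1⁻¹) = A.c2 * A.T0⁻¹ := by
    calc A.T0⁻¹ * (A.c1 * A.c2 * A.c1⁻¹)
        = A.T0⁻¹ * (A.c1 * A.c2 * A.c1⁻¹ * A.T0) * A.T0⁻¹ := by group
      _ = _ := by rw [← pT0c2]; group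
  calc A.c1 * A.c2 * A.c3 * A.T1⁻¹ * A.T0⁻¹ * (A.c1 * A.c2 * A.c1⁻¹)
      = A.c1 * A.c2 * A.c3 * A.T1⁻¹ * (A.T0⁻¹ * (A.c1 * A.c2 * A.c1⁻¹)) := by group
    _ = A.c1 * A.c2 * A.c3 * (A.T1⁻¹ * A.c2) * A.T0⁻¹ := by rw [h]; group
    _ = _ := by rw [nT1c2]; group

theorem comm_c2_t0' : Commute A.c2 A.t0' := by
  rw [commute_iff_eq, Arr.t0']
  symm
  calc (A.c1 * A.c2)⁻¹ * A.T0 * A.c2 = (A.c1 * A.c2)⁻¹ * (A.T0 * A.c2) := by group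
    _ = _ := by rw [pT0c2]; group

theorem comm_c1_t0' : Commute A.c1 A.t0' := by
  rw [commute_iff_eq, Arr.t0']
  symm
  calc (A.c1 * A.c2)⁻¹ * A.T0 * A.c1 = (A.c1 * A.c2)⁻¹ * (A.T0 * A.c1) := by group
    _ = _ := by rw [pT0c1]; group

theorem comm_c2_t1' : Commute A.c2 A.t1' := by
  rw [commute_iff_eq, Arr.t1']
  symm
  calc (A.c2 * A.c3)⁻¹ * A.T1 * A.c2 = (A.c2 * A.c3)⁻¹ * (A.T1 * A.c2) := by group
    _ = _ := by rw [pT1c2]; group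

theorem comm_c3_t1' : Commute A.c3 A.t1' := by
  rw [commute_iff_eq, Arr.t1']
  symm
  calc (A.c2 * A.c3)⁻¹ * A.T1 * A.c3 = (A.c2 * A.c3)⁻¹ * (A.T1 * A.c3) := by group
    _ = _ := by rw [pT1c3]; group

/-- the two elements of a standard pair commute -/
theorem std_comm (μ : Fin 15) : Commute (A.std μ).1 (A.std μ).2 := by
  have hP0 : Commute A.T0 (A.c1 * A.c2 * A.c3) := A.T0P
  have hP1 : Commute A.T1 (A.c1 * A.c2 * A.c3) := A.T1P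
  have hd : Commute A.T0 (A.c1 * A.c2) := A.T0d
  have he : Commute A.T1 (A.c2 * A.c3) := A.T1e
  have h0 : Commute A.T0 A.c3 := A.pT0c3
  have h1 : Commute A.T1 A.c1 := A.pT1c1
  fin_cases μ
  · exact hd.inv_right.mul_right (Commute.refl _)
  · exact A.comm_c2_t0'
  · exact h0
  · exact A.comm_c2_t1'
  · exact A.comm_c3_t1'
  · exact A.comm_c1_t0'
  · exact hP0.inv_right
  · exact h1.symm
  · exact hP1.inv_right.symm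
  · exact (he.inv_right.mul_right (Commute.refl _)).symm
  · exact A.comm_c1_ti'
  · exact A.comm_c3_ti'
  · exact A.comm_c2'_ti''
  · have h2 : Commute (A.c1 * A.c2 * A.c3) A.ti'' := by
      rw [ti''_eq2]
      exact ((Commute.refl _).mul_right hP1.symm.inv_right).mul_right hP0.symm.inv_right
    exact h2.inv_left
  · have h2 : A.ti'' = A.c1 * A.c3 * A.ti' := by rw [Arr.ti']; group
    have h3 : Commute A.ti' (A.c1 * A.c3 * A.ti') :=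
      (A.comm_c1_ti'.symm.mul_right A.comm_c3_ti'.symm).mul_right (Commute.refl _)
    rw [← h2] at h3
    exact h3

end Arr

theorem ConjPair.commute {G : Type} [Group G] {a b x y : G} (h : ConjPair a b x y)
    (hc : Commute x y) : Commute a b := by
  obtain ⟨g, ε, δ, ⟨h1, h2⟩ | ⟨h1, h2⟩⟩ := h
  · rw [h1, h2]
    have h3 : Commute (x ^ (ε : ℤ)) (y ^ (δ : ℤ)) := hc.zpow_zpow _ _
    rw [commute_iff_eq] at h3 ⊢
    calc g * x ^ (ε : ℤ) * g⁻¹ * (g * y ^ (δ : ℤ) * g⁻¹)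
        = g * (x ^ (ε : ℤ) * y ^ (δ : ℤ)) * g⁻¹ := by group
      _ = _ := by rw [h3]; group
  · rw [h1, h2]
    have h3 : Commute (y ^ (ε : ℤ)) (x ^ (δ : ℤ)) := hc.symm.zpow_zpow _ _
    rw [commute_iff_eq] at h3 ⊢
    calc g * y ^ (ε : ℤ) * g⁻¹ * (g * x ^ (δ : ℤ) * g⁻¹)
        = g * (y ^ (ε : ℤ) * x ^ (δ : ℤ)) * g⁻¹ := by group
      _ = _ := by rw [h3]; group

/-- the two local monodromies at a node commute -/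
theorem Arr.w_comm {G : Type} [Group G] (A : Arr G) (ν : Fin 16) :
    Commute (A.wa ν) (A.wb ν) :=
  (A.conj_table ν).commute (A.std_comm _)

end Vale.Agent.P300.Tor
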